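import Vale.Agent.H85.GLFamily

/-!
P318 (Q2), the integrality gap `g(n)` of the Goemans-Linial relaxation of Uniform Sparsest Cut
is larger than one exactly from five vertices on: the relaxation is exact on at most four
vertices, and for every `n ≥ 5` the complete bipartite graph `K_{n-2,2}` has positive
relaxation value and gap at least `1 + 4 / ((n - 2)^2 (n - 1))`.
-/

namespace Vale.Agent.Results.P318.A0_GapIffAtLeastFive

open Finset Vale.Agent.H85.GL

theorem result :
    (∀ n : ℕ, n ≤ 4 → ∀ c : Fin n → Fin n → ℝ, IsCapacity c →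
      ∀ d : Fin n → Fin n → ℝ, IsNegTypeSemimetric d → pairSum d = 1 →
        ∃ S : Finset (Fin n), S.Nonempty ∧ Sᶜ.Nonempty ∧
          cutCap c S ≤ pairSum (fun i j => c i j * d i j)
            * ((S.card : ℝ) * ((n : ℝ) - S.card))) ∧
    (∀ n : ℕ, 5 ≤ n → ∃ c : Fin n → Fin n → ℝ, IsCapacity c ∧
      (∀ d : Fin n → Fin n → ℝ, IsNegTypeSemimetric d → pairSum d = 1 →
        1 / (n : ℝ) ≤ pairSum (fun i j => c i j * d i j)) ∧
      ∃ d : Fin n → Fin n → ℝ, IsNegTypeSemimetric d ∧ pairSum d = 1 ∧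
        ∀ S : Finset (Fin n), S.Nonempty → Sᶜ.Nonempty →
          (1 + 4 / (((n : ℝ) - 2) ^ 2 * ((n : ℝ) - 1))) * pairSum (fun i j => c i j * d i j)
              * ((S.card : ℝ) * ((n : ℝ) - S.card))
            ≤ cutCap c S) := by
  refine ⟨fun n hn c hc d hd hs => ?_, gap_of_five_le⟩
  obtain ⟨⟨x, hx⟩, htri⟩ := hd
  exact small_exact n hn c hc d (fun i j => by rw [hx, hx, norm_sub_rev]) htri hs

end Vale.Agent.Results.P318.A0_GapIffAtLeastFive
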