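import Vale.Agent.H85.GLSmall

/-!
P318 (Q2), small cases of the integrality gap `g(n)` of the Goemans-Linial relaxation of
Uniform Sparsest Cut: the relaxation is exact on at most four vertices, and on five vertices
the complete bipartite graph `K_{3,2}` has gap at least `10/9`.
-/

namespace Vale.Agent.Results.P318.A_SmallCases

open Finset Vale.Agent.H85.GL

theorem result :
    (∀ n : ℕ, n ≤ 4 → ∀ c : Fin n → Fin n → ℝ, IsCapacity c →
      ∀ d : Fin n → Fin n → ℝ, IsNegTypeSemimetric d → pairSum d = 1 →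
        ∃ S : Finset (Fin n), S.Nonempty ∧ Sᶜ.Nonempty ∧
          cutCap c S ≤ pairSum (fun i j => c i j * d i j)
            * ((S.card : ℝ) * ((n : ℝ) - S.card))) ∧
    (∃ c : Fin 5 → Fin 5 → ℝ, IsCapacity c ∧
      (∀ d : Fin 5 → Fin 5 → ℝ, IsNegTypeSemimetric d → pairSum d = 1 →
        1 / 4 ≤ pairSum (fun i j => c i j * d i j)) ∧
      ∃ d : Fin 5 → Fin 5 → ℝ, IsNegTypeSemimetric d ∧ pairSum d = 1 ∧
        ∀ S : Finset (Fin 5), S.Nonempty → Sᶜ.Nonempty →
          (10 / 9 : ℝ) * pairSum (fun i j => c i j * d i j) * ((S.card : ℝ) * (5 - S.card))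
            ≤ cutCap c S) := by
  refine ⟨fun n hn c hc d hd hs => ?_, c5, c5_capacity, c5_gl_pos, d5, d5_negType, d5_sum, c5_cut⟩
  obtain ⟨⟨x, hx⟩, htri⟩ := hd
  exact small_exact n hn c hc d (fun i j => by rw [hx, hx, norm_sub_rev]) htri hs

end Vale.Agent.Results.P318.A_SmallCases
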